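import Mathlib

/-!
P261, helper108: the algebra of finite type.  An abelian group `A` with `lim (A, p) = 0` and
`lim¹ (A, p) = 0` (Ext-`p`-complete) carries a `ℤ_[p]`-module structure, and it is finitely
generated as soon as `A / p` is finite.
-/

set_option autoImplicit false

namespace Vale.Agent.P261.H108

open Finset

variable {A : Type*} [AddCommGroup A] {p : ℕ}

/-- `lim (A, p) = 0` and `lim¹ (A, p) = 0`. -/
structure ExtComplete (A : Type*) [AddCommGroup A] (p : ℕ) : Prop where
  h0 : ∀ y : ℕ → A, (∀ n, y n = p • y (n + 1)) → y 0 = 0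
  h1 : ∀ x : ℕ → A, ∃ y : ℕ → A, ∀ n, y n - p • y (n + 1) = x n

/-- the limit `x 0 + p x 1 + p² x 2 + ...` -/
noncomputable def S (h : ExtComplete A p) (x : ℕ → A) : A := (h.h1 x).choose 0

theorem S_eq (h : ExtComplete A p) {x y : ℕ → A} (hy : ∀ n, y n - p • y (n + 1) = x n) :
    S h x = y 0 := by
  have h2 := (h.h1 x).choose_spec
  have h3 := h.h0 (fun n => (h.h1 x).choose n - y n) (by
    intro n
    have e1 := h2 n
    have e2 := hy n
    have : (h.h1 x).choose n - y n - p • ((h.h1 x).choose (n + 1) - y (n + 1)) = 0 := by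
      rw [smul_sub]
      have : (h.h1 x).choose n - y n - (p • (h.h1 x).choose (n + 1) - p • y (n + 1)) =
        ((h.h1 x).choose n - p • (h.h1 x).choose (n + 1)) - (y n - p • y (n + 1)) := by abel
      rw [this, e1, e2, sub_self]
    exact sub_eq_zero.mp this)
  exact sub_eq_zero.mp h3

theorem S_add (h : ExtComplete A p) (x x' : ℕ → A) : S h (x + x') = S h x + S h x' := by
  have h2 := (h.h1 x).choose_spec
  have h2' := (h.h1 x').choose_spec
  refine S_eq h (y := fun n => (h.h1 x).choose n + (h.h1 x').choose n) ?_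
  intro n
  rw [Pi.add_apply, ← h2 n, ← h2' n, smul_add]
  abel

theorem S_zero (h : ExtComplete A p) : S h 0 = 0 :=
  S_eq h (y := fun _ => 0) (by intro n; simp)

/-- `S` as a homomorphism. -/
noncomputable def SH (h : ExtComplete A p) : (ℕ → A) →+ A where
  toFun := S h
  map_zero' := S_zero h
  map_add' := S_add h

/-- the same relation in `ℤ_[p]`, for integral sequences -/
def R [Fact p.Prime] (c : ℤ_[p]) (x : ℕ → ℤ) : Prop :=
  ∃ y : ℕ → ℤ_[p], y 0 = c ∧ ∀ n, y n - p * y (n + 1) = (x n : ℤ_[p])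

theorem dvd_int [Fact p.Prime] {k : ℤ} (h : (p : ℤ_[p]) ∣ (k : ℤ_[p])) : (p : ℤ) ∣ k := by
  have := (PadicInt.norm_int_lt_one_iff_dvd (p := p) k).1 ?_
  · exact this
  · obtain ⟨c, hc⟩ := h
    rw [hc, norm_mul]
    calc ‖(p : ℤ_[p])‖ * ‖c‖ ≤ ‖(p : ℤ_[p])‖ * 1 :=
          mul_le_mul_of_nonneg_left (PadicInt.norm_le_one c) (norm_nonneg _)
      _ < 1 := by
          rw [mul_one, PadicInt.norm_p]
          have : (1 : ℝ) < p := by exact_mod_cast (Fact.out : p.Prime).one_lt
          exact inv_lt_one_of_one_lt₀ this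

theorem R_exists_left [Fact p.Prime] (x : ℕ → ℤ) : ∃ c : ℤ_[p], R c x := by
  have hs : ∀ n, Summable (fun m : ℕ => (x (n + m) : ℤ_[p]) * (p : ℤ_[p]) ^ m) := by
    intro n
    refine Summable.of_norm_bounded (g := fun m : ℕ => ((p : ℝ)⁻¹) ^ m) ?_ ?_
    · refine summable_geometric_of_lt_one (by positivity) ?_
      have : (1 : ℝ) < p := by exact_mod_cast (Fact.out : p.Prime).one_lt
      exact inv_lt_one_of_one_lt₀ this
    · intro m
      rw [norm_mul, norm_pow, PadicInt.norm_p]
      calc ‖(x (n + m) : ℤ_[p])‖ * ((p : ℝ)⁻¹) ^ m ≤ 1 * ((p : ℝ)⁻¹) ^ m :=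
            mul_le_mul_of_nonneg_right (PadicInt.norm_le_one _) (by positivity)
        _ = _ := one_mul _
  refine ⟨∑' m : ℕ, (x (0 + m) : ℤ_[p]) * (p : ℤ_[p]) ^ m,
    fun n => ∑' m : ℕ, (x (n + m) : ℤ_[p]) * (p : ℤ_[p]) ^ m, rfl, ?_⟩
  intro n
  show ∑' m : ℕ, (x (n + m) : ℤ_[p]) * (p : ℤ_[p]) ^ m -
    p * ∑' m : ℕ, (x (n + 1 + m) : ℤ_[p]) * (p : ℤ_[p]) ^ m = _
  rw [(hs n).tsum_eq_zero_add, ← (hs (n + 1)).tsum_mul_left]
  have : ∀ m : ℕ, (x (n + (m + 1)) : ℤ_[p]) * (p : ℤ_[p]) ^ (m + 1) =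
      p * ((x (n + 1 + m) : ℤ_[p]) * (p : ℤ_[p]) ^ m) := by
    intro m
    rw [show n + (m + 1) = n + 1 + m by ring]
    ring
  simp only [this, add_zero, pow_zero, mul_one]
  ring

theorem step [Fact p.Prime] (c : ℤ_[p]) : ∃ (k : ℤ) (d : ℤ_[p]), c - p * d = (k : ℤ_[p]) := by
  have h := PadicInt.sub_zmodRepr_mem c
  rw [PadicInt.maximalIdeal_eq_span_p, Ideal.mem_span_singleton] at h
  obtain ⟨d, hd⟩ := h
  refine ⟨(PadicInt.zmodRepr c : ℤ), d, ?_⟩
  rw [← hd]
  push_cast
  ring

theorem R_exists_right [Fact p.Prime] (c : ℤ_[p]) : ∃ x : ℕ → ℤ, R c x := by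
  choose k d hk using step (p := p)
  refine ⟨fun n => k (d^[n] c), fun n => d^[n] c, rfl, ?_⟩
  intro n
  show d^[n] c - p * d^[n + 1] c = (k (d^[n] c) : ℤ_[p])
  rw [Function.iterate_succ_apply']
  exact hk _

theorem R_add [Fact p.Prime] {c c' : ℤ_[p]} {x x' : ℕ → ℤ} (h : R c x) (h' : R c' x') :
    R (c + c') (x + x') := by
  obtain ⟨y, hy, hn⟩ := h
  obtain ⟨y', hy', hn'⟩ := h'
  refine ⟨y + y', by rw [Pi.add_apply, hy, hy'], ?_⟩
  intro n
  simp only [Pi.add_apply]
  push_cast
  rw [← hn n, ← hn' n]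
  ring

theorem R_sub [Fact p.Prime] {c c' : ℤ_[p]} {x x' : ℕ → ℤ} (h : R c x) (h' : R c' x') :
    R (c - c') (x - x') := by
  obtain ⟨y, hy, hn⟩ := h
  obtain ⟨y', hy', hn'⟩ := h'
  refine ⟨y - y', by rw [Pi.sub_apply, hy, hy'], ?_⟩
  intro n
  simp only [Pi.sub_apply]
  push_cast
  rw [← hn n, ← hn' n]
  ring

theorem S_of_R_zero [Fact p.Prime] (h : ExtComplete A p) {x : ℕ → ℤ} (hx : R (0 : ℤ_[p]) x)
    (a : A) : S h (fun n => x n • a) = 0 := by
  obtain ⟨y, hy, hn⟩ := hx
  have key : ∀ n, ∃ z : ℤ, y n = z := by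
    intro n
    induction n with
    | zero => exact ⟨0, by rw [hy]; simp⟩
    | succ n ih =>
      obtain ⟨z, hz⟩ := ih
      have h1 : (p : ℤ_[p]) * y (n + 1) = ((z - x n : ℤ) : ℤ_[p]) := by
        push_cast
        rw [← hn n, hz]; ring
      obtain ⟨w, hw⟩ := dvd_int (p := p) (k := z - x n) ⟨y (n + 1), h1.symm⟩
      refine ⟨w, ?_⟩
      have hp : (p : ℤ_[p]) ≠ 0 := by
        exact_mod_cast (Fact.out : p.Prime).ne_zero
      apply mul_left_cancel₀ hp
      rw [h1, hw]
      push_cast
      ring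
  choose z hz using key
  have hz0 : z 0 = 0 := by
    have := hz 0
    rw [hy] at this
    exact_mod_cast this.symm
  have := S_eq h (x := fun n => x n • a) (y := fun n => z n • a) (by
    intro n
    have e : z n - p * z (n + 1) = x n := by
      have := hn n
      rw [hz n, hz (n + 1)] at this
      exact_mod_cast this
    rw [← e, sub_smul, mul_smul]
    simp)
  rw [this, hz0, zero_smul]

/-- the action of `ℤ_[p]` -/
noncomputable def act [Fact p.Prime] (h : ExtComplete A p) (c : ℤ_[p]) (a : A) : A :=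
  S h (fun n => (R_exists_right c).choose n • a)

theorem act_eq [Fact p.Prime] (h : ExtComplete A p) {c : ℤ_[p]} {x : ℕ → ℤ} (hx : R c x) (a : A) :
    act h c a = S h (fun n => x n • a) := by
  have h1 := R_sub (R_exists_right c).choose_spec hx
  rw [sub_self] at h1
  have h2 := S_of_R_zero h h1 a
  have h3 : (fun n => ((R_exists_right c).choose - x) n • a) + (fun n => x n • a) =
      fun n => (R_exists_right c).choose n • a := by
    funext n
    simp [sub_smul]
  have h4 := S_add h (fun n => ((R_exists_right c).choose - x) n • a) (fun n => x n • a)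
  rw [h3, h2, zero_add] at h4
  exact h4

theorem act_add_left [Fact p.Prime] (h : ExtComplete A p) (c c' : ℤ_[p]) (a : A) :
    act h (c + c') a = act h c a + act h c' a := by
  obtain ⟨x, hx⟩ := R_exists_right c
  obtain ⟨x', hx'⟩ := R_exists_right c'
  rw [act_eq h (R_add hx hx'), act_eq h hx, act_eq h hx', ← S_add]
  congr 1
  funext n
  simp [add_smul]

theorem act_add_right [Fact p.Prime] (h : ExtComplete A p) (c : ℤ_[p]) (a a' : A) :
    act h c (a + a') = act h c a + act h c a' := by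
  obtain ⟨x, hx⟩ := R_exists_right c
  rw [act_eq h hx, act_eq h hx, act_eq h hx, ← S_add]
  congr 1
  funext n
  simp [smul_add]

theorem R_one [Fact p.Prime] : R (1 : ℤ_[p]) (fun n => if n = 0 then 1 else 0) := by
  refine ⟨fun n => if n = 0 then 1 else 0, by simp, ?_⟩
  intro n
  by_cases hn : n = 0 <;> simp [hn]

theorem act_one [Fact p.Prime] (h : ExtComplete A p) (a : A) : act h 1 a = a := by
  rw [act_eq h R_one]
  have := S_eq h (x := fun n => (if n = 0 then (1 : ℤ) else 0) • a)
    (y := fun n => (if n = 0 then (1 : ℤ) else 0) • a) (by intro n; simp)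
  rw [this]
  simp

/-- `act` as a homomorphism in the scalar -/
noncomputable def actL [Fact p.Prime] (h : ExtComplete A p) (a : A) : ℤ_[p] →+ A where
  toFun c := act h c a
  map_zero' := by
    have := act_add_left h 0 0 a
    rw [add_zero] at this
    exact (left_eq_add.mp this)
  map_add' c c' := act_add_left h c c' a

theorem act_mul [Fact p.Prime] (h : ExtComplete A p) (c c' : ℤ_[p]) (a : A) :
    act h (c * c') a = act h c (act h c' a) := by
  obtain ⟨x, hx⟩ := R_exists_right c
  rw [act_eq h hx (act h c' a)]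
  obtain ⟨y, hy, hn⟩ := hx
  have := S_eq h (x := fun n => x n • act h c' a) (y := fun n => act h (y n * c') a) (by
    intro n
    have e : y n * c' = (x n : ℤ) • c' + p • (y (n + 1) * c') := by
      rw [nsmul_eq_mul, zsmul_eq_mul, ← hn n]; ring
    have e2 : actL h a (y n * c') = x n • actL h a c' + p • actL h a (y (n + 1) * c') := by
      rw [e, map_add, map_zsmul, map_nsmul]
    have e3 : act h (y n * c') a = x n • act h c' a + p • act h (y (n + 1) * c') a := e2
    show act h (y n * c') a - p • act h (y (n + 1) * c') a = _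
    rw [e3]
    abel)
  rw [this]
  show _ = act h (y 0 * c') a
  rw [hy]

/-- the module structure -/
@[reducible] noncomputable def mod [Fact p.Prime] (h : ExtComplete A p) : Module ℤ_[p] A where
  smul c a := act h c a
  one_smul a := act_one h a
  mul_smul c c' a := act_mul h c c' a
  smul_zero c := by
    have := act_add_right h c 0 0
    rw [add_zero] at this
    exact (left_eq_add.mp this)
  smul_add c a a' := act_add_right h c a a'
  add_smul c c' a := act_add_left h c c' a
  zero_smul a := map_zero (actL h a)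

/-- multiplication by `p` -/
def mulP (A : Type*) [AddCommGroup A] (p : ℕ) : A →+ A := nsmulAddMonoidHom p

/-- `A` is a finitely generated `ℤ_[p]`-module. -/
def IsFG (A : Type*) [AddCommGroup A] (p : ℕ) [Fact p.Prime] : Prop :=
  ∃ _ : Module ℤ_[p] A, Module.Finite ℤ_[p] A

theorem fg_of_finite_coker [Fact p.Prime] (h : ExtComplete A p)
    (hf : Finite (A ⧸ (mulP A p).range)) : IsFG A p := by
  classical
  let _ := mod h
  refine ⟨mod h, ?_⟩
  have := Fintype.ofFinite (A ⧸ (mulP A p).range)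
  let r : A ⧸ (mulP A p).range → A := Quotient.out
  have hr : ∀ a : A, ∃ b : A, a - p • b = r (QuotientAddGroup.mk a) := by
    intro a
    have h1 : (QuotientAddGroup.mk (r (QuotientAddGroup.mk a)) : A ⧸ (mulP A p).range) =
      QuotientAddGroup.mk a := Quotient.out_eq _
    rw [QuotientAddGroup.eq] at h1
    obtain ⟨b, hb⟩ := h1
    refine ⟨b, ?_⟩
    have hb' : p • b = -r (QuotientAddGroup.mk a) + a := hb
    rw [hb']
    abel
  choose d hd using hr
  refine ⟨⟨Finset.univ.image r, ?_⟩⟩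
  rw [eq_top_iff]
  intro a _
  -- digits
  let q : ℕ → A ⧸ (mulP A p).range := fun n => QuotientAddGroup.mk (d^[n] a)
  have hS : S h (fun n => r (q n)) = a := by
    refine S_eq h (y := fun n => d^[n] a) ?_
    intro n
    rw [Function.iterate_succ_apply']
    exact hd _
  have hdec : (fun n => r (q n)) =
      ∑ i : A ⧸ (mulP A p).range, (fun n => (if q n = i then (1 : ℤ) else 0) • r i) := by
    funext n
    rw [Finset.sum_apply]
    simp
  have hS2 : a = ∑ i : A ⧸ (mulP A p).range, SH h (fun n => (if q n = i then (1 : ℤ) else 0) • r i) := by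
    rw [← map_sum, ← hdec]
    exact hS.symm
  rw [hS2]
  refine Submodule.sum_mem _ ?_
  intro i _
  obtain ⟨c, hc⟩ := R_exists_left (p := p) (fun n => if q n = i then (1 : ℤ) else 0)
  have : SH h (fun n => (if q n = i then (1 : ℤ) else 0) • r i) = c • r i :=
    (act_eq h hc (r i)).symm
  rw [this]
  refine Submodule.smul_mem _ _ (Submodule.subset_span ?_)
  simp

/-- literal (D1) of helper631 (#24762) -/
theorem fg_of_extC {p : ℕ} [Fact p.Prime] {A : Type*} [AddCommGroup A]
    (h : ∀ a : ℕ → A, ∃! b : ℕ → A, ∀ n, b n = a n + (p : ℤ) • b (n + 1))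
    (hc : Finite (A ⧸ (zsmulAddGroupHom (p : ℤ) : A →+ A).range)) :
    ∃ _ : Module ℤ_[p] A, Module.Finite ℤ_[p] A := by
  have hE : ExtComplete A p := by
    constructor
    · intro y hy
      have h1 := (h (fun _ => 0)).unique (y₁ := y) (y₂ := fun _ => 0)
        (by intro n; simpa using hy n) (by intro n; simp)
      rw [h1]
    · intro x
      obtain ⟨b, hb, -⟩ := h x
      refine ⟨b, fun n => ?_⟩
      rw [sub_eq_iff_eq_add]
      simpa using hb n
  have hr : (zsmulAddGroupHom (p : ℤ) : A →+ A).range = (mulP A p).range := by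
    ext a
    constructor
    · rintro ⟨b, rfl⟩
      exact ⟨b, by simp [mulP]⟩
    · rintro ⟨b, rfl⟩
      exact ⟨b, by simp [mulP]⟩
  rw [hr] at hc
  exact fg_of_finite_coker hE hc

end Vale.Agent.P261.H108
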